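import Mathlib
import Vale.Agent.Lib.P060.Defs
import Vale.Agent.Lib.P060.Dense

namespace Vale.Agent.Results.P060.B_dense

open Finset Vale.Agent.Lib.P060

open scoped Classical

/-- Let `G` be a finite graph on `n` vertices.
(1) If `G` has no independent set of size three and all its cliques have at most `w ≥ 1` vertices
with `144 w³ ≤ n²`, then `G` has a `K_t` minor with `n ≤ 2 t`.
(2) If `G` has no independent set of size three and all its cliques have at most `w` vertices with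
`1296 w⁴ ≤ n³` and `n ≥ 10000`, then `G` has a `K_t` minor with `2 n ≤ 5 t`.
(3) If every vertex has at most `D` non-neighbours other than itself, and
`3 + 5 D + 2 ⌊D² / (l + 1)⌋ + 2 D l < n` for some `l`, then `G` has a `K_t` minor with `n ≤ 2 t`.
(4) If every vertex has at most `D` non-neighbours other than itself, and
`2 (3 + 5 D + 2 ⌊D² / (l + 1)⌋) ≤ n`, then `G` has a `K_t` minor with `n ≤ 2 t + 4 l² + 1`. -/
theorem result {V : Type*} [Fintype V] (G : SimpleGraph V) :
    (∀ w : ℕ, 1 ≤ w → (∀ s : Finset V, G.IsIndepSet (s : Set V) → s.card ≤ 2) →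
      (∀ s : Finset V, G.IsClique (s : Set V) → s.card ≤ w) →
      144 * w ^ 3 ≤ Fintype.card V ^ 2 →
      ∃ t, Fintype.card V ≤ 2 * t ∧ HasCliqueMinor G t) ∧
    (∀ w : ℕ, (∀ s : Finset V, G.IsIndepSet (s : Set V) → s.card ≤ 2) →
      (∀ s : Finset V, G.IsClique (s : Set V) → s.card ≤ w) →
      1296 * w ^ 4 ≤ Fintype.card V ^ 3 → 10000 ≤ Fintype.card V →
      ∃ t, 2 * Fintype.card V ≤ 5 * t ∧ HasCliqueMinor G t) ∧
    (∀ D l : ℕ, (∀ v, (univ.filter fun w => w ≠ v ∧ ¬ G.Adj v w).card ≤ D) →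
      3 + 5 * D + 2 * (D * D / (l + 1)) + 2 * D * l < Fintype.card V →
      ∃ t, Fintype.card V ≤ 2 * t ∧ HasCliqueMinor G t) ∧
    (∀ D l : ℕ, (∀ v, (univ.filter fun w => w ≠ v ∧ ¬ G.Adj v w).card ≤ D) →
      2 * (3 + 5 * D + 2 * (D * D / (l + 1))) ≤ Fintype.card V →
      ∃ t, Fintype.card V ≤ 2 * t + 4 * l ^ 2 + 1 ∧ HasCliqueMinor G t) :=
  ⟨fun _ hw1 h2 hw h => exact_alpha_two G hw1 h2 hw h,
   fun _ h2 hw h hn => near_alpha_two G h2 hw h hn,
   fun D l hD h => exact_minor G D l hD h,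
   fun D l hD h => near_minor G D l hD h⟩

end Vale.Agent.Results.P060.B_dense
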