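import Vale.Agent.Results.P060.A_ratio
import Vale.Agent.Results.P060.B_dense

namespace Vale.Agent.Results.P060.AAA_union

open Finset Vale.Agent.Lib.P060

open scoped Classical

/-- The bound `n ≤ (2 a - 2) t` for independence number at most `a ≥ 3`, together with the four
dense statements of the hand-in `B_dense`. -/
theorem result {V : Type*} [Fintype V] (G : SimpleGraph V) :
    (∀ a : ℕ, 3 ≤ a → (∀ s : Finset V, G.IsIndepSet (s : Set V) → s.card ≤ a) →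
      ∃ t : ℕ, Fintype.card V ≤ (2 * a - 2) * t ∧ HasCliqueMinor G t) ∧
    (∀ w : ℕ, 1 ≤ w → (∀ s : Finset V, G.IsIndepSet (s : Set V) → s.card ≤ 2) →
      (∀ s : Finset V, G.IsClique (s : Set V) → s.card ≤ w) →
      144 * w ^ 3 ≤ Fintype.card V ^ 2 →
      ∃ t, Fintype.card V ≤ 2 * t ∧ HasCliqueMinor G t) ∧
    (∀ w : ℕ, (∀ s : Finset V, G.IsIndepSet (s : Set V) → s.card ≤ 2) →
      (∀ s : Finset V, G.IsClique (s : Set V) → s.card ≤ w) →
      1296 * w ^ 4 ≤ Fintype.card V ^ 3 → 10000 ≤ Fintype.card V →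
      ∃ t, 2 * Fintype.card V ≤ 5 * t ∧ HasCliqueMinor G t) ∧
    (∀ D l : ℕ, (∀ v, (univ.filter fun w => w ≠ v ∧ ¬ G.Adj v w).card ≤ D) →
      3 + 5 * D + 2 * (D * D / (l + 1)) + 2 * D * l < Fintype.card V →
      ∃ t, Fintype.card V ≤ 2 * t ∧ HasCliqueMinor G t) ∧
    (∀ D l : ℕ, (∀ v, (univ.filter fun w => w ≠ v ∧ ¬ G.Adj v w).card ≤ D) →
      2 * (3 + 5 * D + 2 * (D * D / (l + 1))) ≤ Fintype.card V →
      ∃ t, Fintype.card V ≤ 2 * t + 4 * l ^ 2 + 1 ∧ HasCliqueMinor G t) :=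
  ⟨fun a ha h => Vale.Agent.Results.P060.A_ratio.result G a ha h,
    (Vale.Agent.Results.P060.B_dense.result G)⟩

end Vale.Agent.Results.P060.AAA_union
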