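import Mathlib
import Vale.Agent.Lib.P060.Defs
import Vale.Agent.Lib.P060.Ratio

namespace Vale.Agent.Results.P060.A_ratio

open Vale.Agent.Lib.P060

/-- Every finite graph on `n` vertices whose independent sets have at most `a ≥ 3` vertices has a
`K_t` minor with `n ≤ (2a-2) t`. -/
theorem result {V : Type*} [Fintype V] (G : SimpleGraph V) (a : ℕ) (ha : 3 ≤ a)
    (hα : ∀ s : Finset V, G.IsIndepSet (s : Set V) → s.card ≤ a) :
    ∃ t : ℕ, Fintype.card V ≤ (2 * a - 2) * t ∧ HasCliqueMinor G t :=
  exists_minor a ha hα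

end Vale.Agent.Results.P060.A_ratio
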